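import Vale.Agent.H88.CT.Defs

/-!
The primal (TRI-COVER) hypothesis for three-row contingency tables (definitions only; the
bridge to `ThreeRowGap` is by induction on the total of the table).
-/

namespace Vale.Agent.H41.CT

open Finset Vale.Agent.H90 Vale.Agent.H88.CT

variable {n : ℕ}

/-- The three-row gap form: right-hand side minus left-hand side of the inequality of
`ThreeRowGap` on the class `Omega r c`. -/
noncomputable def gap3 {r : Fin 3 → ℕ} {c : Fin n → ℕ} (f : Omega r c → ℝ) : ℝ :=
  ∑ k : Fin 3, ∑ X, (f X - avgRel (fun X Y : Omega r c => X.1 k = Y.1 k) f X) ^ 2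
    - ∑ X, (f X - (∑ Y, f Y) / (Fintype.card (Omega r c) : ℝ)) ^ 2

/-- Row sums after adding one unit to every row. -/
def rowUp (r : Fin 3 → ℕ) : Fin 3 → ℕ := fun k => r k + 1

/-- Column sums after adding one unit to each of the columns `col 0, col 1, col 2`. -/
def colUp (c : Fin n → ℕ) (col : Fin 3 → Fin n) : Fin n → ℕ :=
  fun j => c j + (univ.filter (fun k : Fin 3 => col k = j)).card

/-- Add the pattern of the bijection `σ`: one unit in each of the cells `(k, col (σ k))`. -/
def addPerm {r : Fin 3 → ℕ} {c : Fin n → ℕ} (col : Fin 3 → Fin n) (σ : Equiv.Perm (Fin 3))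
    (Y : Omega r c) : Omega (rowUp r) (colUp c col) :=
  ⟨fun k j => Y.1 k j + if j = col (σ k) then 1 else 0, by
    constructor
    · intro k
      rw [Finset.sum_add_distrib, Y.2.1 k]
      simp [rowUp]
    · intro j
      rw [Finset.sum_add_distrib, Y.2.2 j]
      unfold colUp
      congr 1
      rw [Finset.card_filter]
      exact Fintype.sum_equiv σ _ _ (fun k => by simp [eq_comm])⟩

/-- The primal (TRI-COVER) hypothesis: on every class of `3 x n` tables with all row sums
positive and three distinct columns `col 0, col 1, col 2` with positive column sums, six times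
the three-row gap form of `f` dominates the sum, over the six bijections `σ` from the rows to
the three columns, of the gap form of `f` restricted to the tables that have a unit in each
cell `(k, col (σ k))` (this sub-class is a copy of the class with the pattern removed). -/
def TriCoverHyp : Prop :=
  ∀ (n : ℕ) (r : Fin 3 → ℕ) (c : Fin n → ℕ) (col : Fin 3 → Fin n), Function.Injective col →
    ∀ f : Omega (rowUp r) (colUp c col) → ℝ,
      ∑ σ : Equiv.Perm (Fin 3), gap3 (fun Y : Omega r c => f (addPerm col σ Y)) ≤ 6 * gap3 f

end Vale.Agent.H41.CT
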